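import Vale.Agent.P082.Iface
import Vale.Agent.P082.Scope.Defs

/-!
# P096: interfaces for the strong Kadison-Kastler conjecture (notes/P096/GO_helper9.md)
-/

namespace Vale.Agent.P096

open Vale.Agent.P082 (Alg)

universe u

variable {H : Type u} [NormedAddCommGroup H] [InnerProductSpace ℂ H] [CompleteSpace H]

/-- Every element of the unit ball of `M` is within `ε` of the unit ball of `N`. -/
def BallNear (M N : VonNeumannAlgebra H) (ε : ℝ) : Prop :=
  ∀ x ∈ M, ‖x‖ ≤ 1 → ∃ y ∈ N, ‖y‖ ≤ 1 ∧ ‖x - y‖ ≤ ε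

/-- The Kadison-Kastler distance is at most `ε`. -/
def Near (M N : VonNeumannAlgebra H) (ε : ℝ) : Prop := BallNear M N ε ∧ BallNear N M ε

/-- A linear map from `M` into `N` that moves no element by more than `η` times its norm. -/
def NearLinear (M N : VonNeumannAlgebra H) (η : ℝ) : Prop :=
  ∃ L : Alg M →ₗ[ℂ] Alg N, ∀ x : Alg M, ‖(L x : H →L[ℂ] H) - (x : H →L[ℂ] H)‖ ≤ η * ‖x‖

/-- `u M u* = N`. -/
def Conj (u : H →L[ℂ] H) (M N : VonNeumannAlgebra H) : Prop :=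
  (∀ x ∈ M, u * x * star u ∈ N) ∧ ∀ y ∈ N, star u * y * u ∈ M

namespace Iface

/-- A, core: the linear map when `N` has separating tracial vectors. -/
def StmtACore.{v} : Prop :=
  ∃ C ε₀ : ℝ, 0 ≤ C ∧ 0 < ε₀ ∧
    ∀ (H : Type v) [NormedAddCommGroup H] [InnerProductSpace ℂ H] [CompleteSpace H]
      (M N : VonNeumannAlgebra H) (ε : ℝ), Vale.Agent.P082.HasTracialVectors N →
      0 ≤ ε → ε ≤ ε₀ → Near M N ε → NearLinear M N (C * ε)

/-- A: the linear map when `N` is finite. -/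
def StmtA.{v} : Prop :=
  ∃ C ε₀ : ℝ, 0 ≤ C ∧ 0 < ε₀ ∧
    ∀ (H : Type v) [NormedAddCommGroup H] [InnerProductSpace ℂ H] [CompleteSpace H]
      (M N : VonNeumannAlgebra H) (ε : ℝ), Vale.Agent.P082.Scope.HasNormalTraces N →
      0 ≤ ε → ε ≤ ε₀ → Near M N ε → NearLinear M N (C * ε)

/-- B: a linear map near the identity gives a unitary near one. -/
def StmtB.{v} : Prop :=
  ∃ C ε₀ : ℝ, 0 ≤ C ∧ 0 < ε₀ ∧
    ∀ (H : Type v) [NormedAddCommGroup H] [InnerProductSpace ℂ H] [CompleteSpace H]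
      (M N : VonNeumannAlgebra H) (η : ℝ), 0 ≤ η → η ≤ ε₀ → Near M N η → NearLinear M N η →
      ∃ u ∈ unitary (H →L[ℂ] H), ‖u - 1‖ ≤ C * η ∧ Conj u M N

/-- The conjecture when one of the algebras is finite. -/
def StmtFinite.{v} : Prop :=
  ∀ ε : ℝ, 0 < ε → ∃ δ : ℝ, 0 < δ ∧
    ∀ (H : Type v) [NormedAddCommGroup H] [InnerProductSpace ℂ H] [CompleteSpace H]
      (M N : VonNeumannAlgebra H), Vale.Agent.P082.Scope.HasNormalTraces N → Near M N δ →
      ∃ u ∈ unitary (H →L[ℂ] H), ‖u - 1‖ < ε ∧ Conj u M N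

end Iface

end Vale.Agent.P096
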